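import Vale.Agent.P304.Measure

/-!
P304: a randomized policy on finite metric spaces whose ratio is `O(log² k (log log k)²)` when
the number of points is polynomial in `k`.
-/

namespace Vale.Agent.Results.P304.PolySize

open Finset MeasureTheory Vale.P304

theorem result : ∃ C : ℝ, 0 < C ∧
    ∀ (X : Type) [MetricSpace X] [Fintype X] (k : ℕ) [NeZero k] (s : Fin k → X),
      ∃ (Ω : Type) (_ : MeasurableSpace Ω) (μ : Measure Ω) (A : Ω → List X → Fin k),
        IsProbabilityMeasure μ ∧ (∀ h : List X, Measurable fun ω => A ω h) ∧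
        ∃ B : ℝ, ∀ σ : List X,
          Integrable (fun ω => policyCost dist s σ (A ω)) μ ∧
          ∫ ω, policyCost dist s σ (A ω) ∂μ ≤
            C * (1 + Real.log (Fintype.card X)) *
              (Real.sqrt ((1 + Real.log (Fintype.card X)) * (1 + Real.log k)) + (1 + Real.log k)) *
              (1 + Real.log (2 + Real.log (Fintype.card X) + Real.log k)) ^ 2 *
              optCost dist s σ + B := by
  classical
  refine ⟨116160 * (lawConst + 2), by linarith [lawConst_pos], fun X _ _ k _ s => ?_⟩
  haveI : Nonempty X := ⟨s 0⟩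
  have hd : IsDist (fun x y : X => dist x y) := ⟨dist_self, dist_comm, dist_triangle⟩
  obtain ⟨δ, H, hδ, hsep, htop⟩ := exists_scale (Y := X)
  obtain ⟨N, ⟨q⟩⟩ : ∃ N : ℕ, Nonempty (Fin N ≃ (X ≃ Fin (Fintype.card X)) × Fin (4 ^ H)) :=
    ⟨_, ⟨(Fintype.equivFin _).symm⟩⟩
  haveI : NeZero N := ⟨fun h => by
    subst h
    exact (q.symm (Fintype.equivFin X, ⟨0, by positivity⟩)).elim0⟩
  have hs : ∀ i : Fin N,
      Scale (fun x y : X => dist x y) δ (factor H (q i).2) H := fun i =>
    ⟨hd, hδ, (factor_mem H _).1, (factor_mem H _).2, hsep, htop⟩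
  have hcard : Fintype.card ((X ≃ Fin (Fintype.card X)) × Fin (4 ^ H)) = N :=
    (Fintype.card_congr q).symm.trans (Fintype.card_fin N)
  have hmean : ∀ x y : X, ∑ i, treeDist dist δ (factor H (q i).2) H (q i).1 x y ≤
      (N : ℝ) * (110 * (1 + Real.log (Fintype.card X))) * dist x y := fun x y => by
    rw [q.sum_comp fun p => treeDist dist δ (factor H p.2) H p.1 x y, ← hcard]
    exact sum_treeDist_le hd hδ hsep htop rfl x y
  have hu := Real.log_natCast_nonneg (Fintype.card X)
  have hv := Real.log_natCast_nonneg k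
  have hpos : 0 < 1056 * (lawConst + 2) *
      ((Real.sqrt ((1 + Real.log (Fintype.card X)) * (1 + Real.log k)) + (1 + Real.log k)) *
        (1 + Real.log (2 + Real.log (Fintype.card X) + Real.log k)) ^ 2) := by
    have := lawConst_pos
    have := Real.log_nonneg (show (1 : ℝ) ≤ 2 + Real.log (Fintype.card X) + Real.log k by linarith)
    positivity
  obtain ⟨μ, A, hμ, hA, B, hB⟩ := exists_policy (fun x y : X => dist_nonneg)
    (fun i => (hs i).isDist_treeDist (e := (q i).1))
    (fun i x y => (hs i).le_treeDist (e := (q i).1) x y)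
    (fun i => pert_tree (hs i) rfl (e := (q i).1)) hmean (by linarith : 1 ≤ 1 + Real.log k)
    (ratio_le Fintype.card_pos NeZero.one_le) hpos (by linarith) s
  refine ⟨_, inferInstance, μ, A, hμ, hA, B, fun σ => ⟨(hB σ).1, (hB σ).2.trans (le_of_eq ?_)⟩⟩
  ring

end Vale.Agent.Results.P304.PolySize
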